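import Crest.Agent.TL.ConcWire

/-!
# S0209/S0210: the one-sided hypothesis of the B-c window

At a supporting line of `F(β,A,·)` the level `0` amplitudes `Z(s, ℓ₀, q, β) exp((1/2) β A Γ₀ q²/ℓ₀³)`
are below the line up to a tiny error, for ALL `q`: from `OSConcrete.hOS_of` for `q ≤ ρmax ℓ₀³` and
from `hTail` above. This is the hypothesis `hAm` of `BarrierSplit.barrier_split`.
-/

set_option autoImplicit false
set_option linter.unusedSectionVars false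
set_option linter.unusedVariables false

namespace Crest.Agent.TL.Asm

open Crest.ProbabilityR.Continuum Real Set Filter Topology
open Crest.Agent.TL.Gauss Crest.Agent.TL.Series Crest.Agent.TL.Potential
open Crest.Agent.TL.Num (A0 Ap Amax beta2 betaT g1 r2 Uof)
open Crest.Agent.TL.OSConcrete (oOS)

variable {K0 e0 : ℕ} {cr : ℝ → ℝ} {eE : ℝ} {Kg : ℕ} {S Cv : ℝ}

/-- The error at level `0`. -/
noncomputable def oW (K0 e0 : ℕ) (Kg : ℕ) (S β A c : ℝ) : ℝ :=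
  oOS K0 e0 A β ρmax (Crude.C10 ρmax beta2 (U₂ / 2) S Kg) (uu K0 e0 A 0) 0 + c -
    c / Rate.lam K0 e0 0 ^ 3

lemma Xi_zero (K0 e0 : ℕ) : Level.Xi (Ah K0) (RR K0) (ell K0 e0) 0 = 0 := by
  simp [Level.Xi]

lemma one_le_rhomax' : 1 ≤ ρmax := by
  unfold ρmax
  apply Real.one_le_exp
  have h1 : 0 ≤ Mμ := by
    unfold Mμ Fm
    have := g1_pos
    positivity
  have h2 := U₂_pos
  have h3 : (0:ℝ) < beta2 := by unfold Num.beta2; positivity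
  positivity

lemma c_sub_nonneg {c l : ℝ} (hc : c ≤ 0) (hl : 0 < l) (hl1 : l ≤ 1) : 0 ≤ c - c / l := by
  have h1 : c / l ≤ c := by
    rw [div_le_iff₀ hl]
    nlinarith
  linarith

section

variable (W : Wire K0 e0 cr eE Kg S Cv)
include W

lemma Wire.oW_nonneg {β A c : ℝ} (h1 : 1 ≤ β) (h3 : A0 ≤ A) (h4 : A ≤ Ap) (hc : c ≤ 0) :
    0 ≤ oW K0 e0 Kg S β A c := by
  have h5 := W.oOS_nonneg (β := β) (by linarith) h3 h4 0
  have h6 := c_sub_nonneg hc (pow_pos (lam_pos K0 e0 0) 3)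
    (pow_le_one₀ (lam_pos K0 e0 0).le (Rate.lam_le_one 0))
  unfold oW
  linarith

/-- The error is tiny. -/
lemma Wire.oW_lt {β A c : ℝ} (h1 : 1 ≤ β) (h2 : β ≤ beta2) (h3 : A0 ≤ A) (h4 : A ≤ Ap)
    (hc1 : -cbar ≤ c) (hc2 : c ≤ 0) : oW K0 e0 Kg S β A c < g1 / 8 := by
  have h5 := W.hm0 β A c 1 h1 h2 h3 h4 hc1 hc2 one_pos one_le_rhomax'
  have hℓ := Rate.ell_pos' K0 e0 0
  have h6 : 0 ≤ Real.log (ρmax * (ell K0 e0 0 : ℝ) ^ 3 + 3) / (ell K0 e0 0 : ℝ) ^ 3 := by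
    refine div_nonneg (Real.log_nonneg ?_) (by positivity)
    have := one_le_rhomax'
    have : 0 ≤ ρmax * (ell K0 e0 0 : ℝ) ^ 3 := by positivity
    linarith
  unfold mLHS at h5
  rw [Xi_zero] at h5
  unfold oW
  simp only [mul_zero, zero_mul, add_zero] at h5
  linarith

/-- The level `0` bound. -/
theorem Wire.lev0_le {β A μ c ρ₀ : ℝ} (h1 : 1 ≤ β) (h2 : β ≤ beta2) (h3 : A0 ≤ A) (h4 : A ≤ Ap)
    (hC : Contact K0 cr β A μ c ρ₀) (hμ : |μ| ≤ Mμ) (hc1 : -cbar ≤ c) (hc2 : c ≤ 0) (q : ℕ) :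
    Lev0 K0 e0 cr β A q ≤ ℓ0 K0 e0 ^ 3 *
      (-(μ * ((q : ℝ) / ℓ0 K0 e0 ^ 3)) - c + oW K0 e0 Kg S β A c) := by
  have hℓ : 0 < ℓ0 K0 e0 := Rate.ell_pos' K0 e0 0
  have hℓ3 : 0 < ℓ0 K0 e0 ^ 3 := pow_pos hℓ 3
  have hoW := W.oW_nonneg h1 h3 h4 hc2
  have hβ0 : 0 ≤ β := by linarith
  have hA0 : 0 ≤ A := A0_pos.le.trans h3
  have hl := pow_pos (lam_pos K0 e0 0) 3
  have hoO := W.oOS_nonneg (β := β) hβ0 h3 h4 0
  rcases Nat.eq_zero_or_pos q with rfl | hq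
  · -- `q = 0`
    unfold Lev0
    rw [Concentration.partitionFn_zero (ss cr) _ _ hℓ.le]
    simp only [Nat.cast_zero, ne_eq, OfNat.ofNat_ne_zero, not_false_eq_true, zero_pow, zero_div,
      mul_zero, Real.log_one, add_zero, neg_zero, zero_sub]
    have : 0 ≤ -c + oW K0 e0 Kg S β A c := by linarith
    positivity
  by_cases hlow : (q : ℝ) ≤ ρmax * ℓ0 K0 e0 ^ 3
  · -- the one-sided bound
    have h := OSConcrete.hOS_of W.hK (ss_meas W.hc) (ss_nonneg W.hc) (fun r hr => ss_tail W.hc hr)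
      W.hKg W.hS W.hsS (A := A) (β := β) (βm := beta2) (B := U₂ / 2) (B' := U₂ / 2) (ρ := ρmax)
      (u := uu K0 e0 A 0) hA0 hβ0 h2 (by have := U₂_pos; positivity)
      (Real.exp_pos _).le W.hρK 0
      (fun v hv hv1 N x => stable_trunc W.hc W.hK1 hA0 (h4.trans Ap_lt_Amax.le) hv hv1 0 x)
      (adm_phiA W.hc W.hK1 hA0 (h4.trans Ap_lt_Amax.le)).stable
      (W.um_mem h3 h4 0).1 (W.um_mem h3 h4 0).2 hq hlow
    have e1 : (fun r => uu K0 e0 A 0 * ss cr r - A * wlo K0 0 r) = ss cr := psiM_zero K0 e0 cr A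
    rw [e1] at h
    have hσ : 0 < (q : ℝ) / ℓ0 K0 e0 ^ 3 * Rate.lam K0 e0 0 ^ 3 := by
      have : (0 : ℝ) < q := by exact_mod_cast hq
      exact mul_pos (div_pos this hℓ3) hl
    have hsup := hC.supp _ hσ
    unfold FF at hsup
    have hF : Thermo.hFree (fun r => ss cr r - A * ww K0 r) β
        ((q : ℝ) / ℓ0 K0 e0 ^ 3 * Rate.lam K0 e0 0 ^ 3) / Rate.lam K0 e0 0 ^ 3 ≤
        -(μ * ((q : ℝ) / ℓ0 K0 e0 ^ 3)) - c / Rate.lam K0 e0 0 ^ 3 := by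
      have h5 : Thermo.hFree (fun r => ss cr r - A * ww K0 r) β
          ((q : ℝ) / ℓ0 K0 e0 ^ 3 * Rate.lam K0 e0 0 ^ 3) ≤
          -(μ * ((q : ℝ) / ℓ0 K0 e0 ^ 3 * Rate.lam K0 e0 0 ^ 3) + c) := by
        have : Thermo.hFree (phiA K0 cr A) β ((q : ℝ) / ℓ0 K0 e0 ^ 3 * Rate.lam K0 e0 0 ^ 3) ≤ _ :=
          (le_neg_of_le_neg hsup)
        exact this
      rw [div_le_iff₀ hl]
      refine h5.trans (le_of_eq ?_)
      have aux : ∀ (x l : ℝ), 0 < l → -(μ * (x * l) + c) = (-(μ * x) - c / l) * l := by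
        intro x l hl'
        have := hl'.ne'
        field_simp
        ring
      exact aux _ _ hl
    have h6 : ℓ0 K0 e0 ^ 3 * (Thermo.hFree (fun r => ss cr r - A * ww K0 r) β
        ((q : ℝ) / ℓ0 K0 e0 ^ 3 * Rate.lam K0 e0 0 ^ 3) / Rate.lam K0 e0 0 ^ 3 +
        oOS K0 e0 A β ρmax (Crude.C10 ρmax beta2 (U₂ / 2) S Kg) (uu K0 e0 A 0) 0) ≤
        ℓ0 K0 e0 ^ 3 * (-(μ * ((q : ℝ) / ℓ0 K0 e0 ^ 3)) - c + oW K0 e0 Kg S β A c) := by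
      refine mul_le_mul_of_nonneg_left ?_ hℓ3.le
      unfold oW
      linarith
    exact le_trans h h6
  · -- the tail
    have h := W.hTail β A μ c h1 h2 h3 h4 hμ hc1 hc2 0 q (not_le.1 hlow)
    rw [psiM_zero] at h
    have hq0 : (0 : ℝ) ≤ q := Nat.cast_nonneg _
    have hχ : 0 ≤ (β * Ap / 16) * ((q : ℝ) ^ 2 / (ell K0 e0 0 : ℝ) ^ 3) := by
      have := Ap_pos
      have h7 : 0 ≤ (q : ℝ) ^ 2 / (ell K0 e0 0 : ℝ) ^ 3 := div_nonneg (by positivity) hℓ3.le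
      positivity
    have e2 : ℓ0 K0 e0 ^ 3 * (-(μ * ((q : ℝ) / ℓ0 K0 e0 ^ 3)) - c + oW K0 e0 Kg S β A c) =
        -(μ * q) + ℓ0 K0 e0 ^ 3 * (-c + oW K0 e0 Kg S β A c) := by
      field_simp
      ring
    rw [e2]
    have e3 : ℓ0 K0 e0 ^ 3 * (-c + oW K0 e0 Kg S β A c) ≥
        -(c / Rate.lam K0 e0 0 ^ 3 * ℓ0 K0 e0 ^ 3) := by
      have : -c + oW K0 e0 Kg S β A c ≥ -(c / Rate.lam K0 e0 0 ^ 3) := by
        unfold oW
        linarith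
      have := mul_le_mul_of_nonneg_left this hℓ3.le
      nlinarith
    unfold Lev0 Γ0
    have e4 : ℓ0 K0 e0 = (ell K0 e0 0 : ℝ) := rfl
    rw [e4] at e3 ⊢
    nlinarith

/-- The hypothesis `hAm` of `BarrierSplit.barrier_split` at a supporting line. -/
theorem Wire.hAm {β A μ c ρ₀ : ℝ} (h1 : 1 ≤ β) (h2 : β ≤ beta2) (h3 : A0 ≤ A) (h4 : A ≤ Ap)
    (hC : Contact K0 cr β A μ c ρ₀) (hμ : |μ| ≤ Mμ) (hc1 : -cbar ≤ c) (hc2 : c ≤ 0) (q : ℕ) :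
    partitionFn (ss cr) (ℓ0 K0 e0) q β *
        Real.exp (1 / 2 * (β * A * Γ0 K0 e0) * (q : ℝ) ^ 2 / ℓ0 K0 e0 ^ 3) ≤
      Real.exp (ℓ0 K0 e0 ^ 3 *
        (-(μ * ((q : ℝ) / ℓ0 K0 e0 ^ 3)) - c + oW K0 e0 Kg S β A c)) := by
  have h := W.lev0_le h1 h2 h3 h4 hC hμ hc1 hc2 q
  have hZ : 0 ≤ partitionFn (ss cr) (ℓ0 K0 e0) q β := by
    unfold partitionFn
    exact mul_nonneg (by positivity) (MeasureTheory.integral_nonneg fun _ => (Real.exp_pos _).le)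
  have e : 1 / 2 * (β * A * Γ0 K0 e0) * (q : ℝ) ^ 2 / ℓ0 K0 e0 ^ 3 =
      (1 / 2) * β * A * Γ0 K0 e0 * ((q : ℝ) ^ 2 / ℓ0 K0 e0 ^ 3) := by ring
  rw [mul_comm, e]
  exact Concentration.exp_mul_le_of_log hZ h

/-- The logarithmic counting term is tiny. -/
lemma Wire.log_le {c : ℝ} (hc1 : -cbar ≤ c) (hc2 : c ≤ 0) {q : ℕ}
    (hq : (q : ℝ) ≤ ρmax * ℓ0 K0 e0 ^ 3) : Real.log ((q : ℝ) + 1) / ℓ0 K0 e0 ^ 3 ≤ g1 / 8 := by
  have hA0 : A0 ≤ A0 := le_rfl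
  have hA1 : A0 ≤ Ap := A0_lt_Ap.le
  have hb : (1:ℝ) ≤ beta2 := by unfold Num.beta2; norm_num
  have h5 := W.hm0 1 A0 c 1 le_rfl hb hA0 hA1 hc1 hc2 one_pos one_le_rhomax'
  have h6 := W.oW_nonneg (β := 1) le_rfl hA0 hA1 hc2
  have hℓ : 0 < ℓ0 K0 e0 := Rate.ell_pos' K0 e0 0
  have hℓ3 : 0 < ℓ0 K0 e0 ^ 3 := pow_pos hℓ 3
  unfold mLHS at h5
  rw [Xi_zero] at h5
  simp only [mul_zero, zero_mul, add_zero] at h5
  unfold oW at h6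
  have h7 : Real.log ((q : ℝ) + 1) ≤ Real.log (ρmax * (ell K0 e0 0 : ℝ) ^ 3 + 3) := by
    refine Real.log_le_log (by positivity) ?_
    have e : ℓ0 K0 e0 = (ell K0 e0 0 : ℝ) := rfl
    rw [e] at hq
    linarith
  have h8 : Real.log ((q : ℝ) + 1) / ℓ0 K0 e0 ^ 3 ≤
      Real.log (ρmax * (ell K0 e0 0 : ℝ) ^ 3 + 3) / (ell K0 e0 0 : ℝ) ^ 3 :=
    div_le_div_of_nonneg_right h7 hℓ3.le
  linarith

end

end Crest.Agent.TL.Asm
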