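import Crest.Agent.TL.ConcWire
import Crest.Agent.TL.Budget

/-!
# The choice of the parameters `K₀, e₀, K_g, S` for `Wire`
-/

set_option autoImplicit false

namespace Crest.Agent.TL.Asm

open Crest.ProbabilityR.Continuum Real Set Filter Topology
open Crest.Agent.TL.Gauss Crest.Agent.TL.Series Crest.Agent.TL.Potential
open Crest.Agent.TL.Num (A0 Ap Amax beta2 betaT g1 r2 Uof Tol tolE)
open Crest.Agent.TL.OSConcrete (oOS)

section

variable {cr : ℝ → ℝ}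

lemma Mμ_nonneg : 0 ≤ Mμ := by
  unfold Mμ Fm
  have := g1_pos
  positivity

lemma cbar_nonneg : 0 ≤ cbar := by
  unfold cbar Fm
  have := Mμ_nonneg
  positivity

lemma one_le_beta2 : 1 ≤ beta2 := by unfold beta2; norm_num

lemma one_le_rhomax : 1 ≤ ρmax := by
  unfold ρmax
  apply Real.one_le_exp
  have := Mμ_nonneg
  have := U₂_pos
  have := beta2_pos
  positivity

lemma one_le_A0 : 1 ≤ A0 := by unfold A0; norm_num

lemma CoB_mono {β A : ℝ} (_hβ0 : 0 ≤ β) (hβ : β ≤ beta2) (hA0 : 0 ≤ A) (hA : A ≤ Ap) {ρ : ℝ}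
    (hρ : 0 ≤ ρ) : CoB β A ρ ≤ CoB beta2 Ap ρ := by
  unfold CoB
  have hb := beta2_pos
  have hAp := Ap_pos
  have h1 : β * A ≤ beta2 * Ap := mul_le_mul hβ hA hA0 hb.le
  have h2 : (1 / 2) * β * A * ρ ^ 2 ≤ (1 / 2) * beta2 * Ap * ρ ^ 2 := by
    have e1 : (1 / 2) * β * A * ρ ^ 2 = (1 / 2) * (β * A) * ρ ^ 2 := by ring
    have e2 : (1 / 2) * beta2 * Ap * ρ ^ 2 = (1 / 2) * (beta2 * Ap) * ρ ^ 2 := by ring
    rw [e1, e2]
    apply mul_le_mul_of_nonneg_right _ (sq_nonneg ρ)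
    linarith
  have h3 : (1 / 2) * β * A * ρ ≤ (1 / 2) * beta2 * Ap * ρ := by
    have e1 : (1 / 2) * β * A * ρ = (1 / 2) * (β * A) * ρ := by ring
    have e2 : (1 / 2) * beta2 * Ap * ρ = (1 / 2) * (beta2 * Ap) * ρ := by ring
    rw [e1, e2]
    apply mul_le_mul_of_nonneg_right _ hρ
    linarith
  linarith

/-- The master constant. -/
noncomputable def KdV (C10 : ℝ) : ℝ :=
  (8 * Ap * C10 / Us) + (Real.log (ρmax + 3) + 3) + 48 * cbar + beta2 * Ap * ρmax + (4 * Ap / Us)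
    + CoB beta2 Ap ρmax * 2 ^ 104

set_option maxRecDepth 100000 in
theorem exists_wire_budget (hc : CoreOK cr) :
    ∃ (K0 e0 : ℕ) (Kg : ℕ) (S : ℝ), 410 ≤ K0 ∧ e0 + 1 ≤ K0 ∧
      Wire K0 e0 cr (1 / 64) Kg S (Cv ρmax) := by
  have hρ1 := one_le_rhomax
  have hρ0 : 0 ≤ ρmax := by linarith
  -- `Kg`
  obtain ⟨Kg, hKg⟩ := exists_nat_ge ρmax
  have hKgpos : 0 < Kg := by
    have : (0:ℝ) < Kg := by linarith
    exact_mod_cast this
  have hKg1 : (1:ℝ) ≤ Kg := by exact_mod_cast hKgpos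
  have hρK : ρmax ≤ (Kg : ℝ) ^ 3 := by
    have : (Kg:ℝ) ≤ (Kg:ℝ) ^ 3 := by
      have h3 : (1:ℝ) ≤ (Kg:ℝ) ^ 2 := one_le_pow₀ hKg1
      nlinarith
    linarith
  -- `S`
  have ha : (0:ℝ) < 1 / (2 * (Kg : ℝ)) := by positivity
  obtain ⟨S, hS0, hS⟩ := ss_le hc ha
  set C10 : ℝ := Crude.C10 ρmax beta2 (U₂ / 2) S Kg with hC10
  have hC0 : 0 ≤ C10 := by
    rw [hC10]
    unfold Crude.C10
    have h1 : 0 ≤ Real.log (2 * (Kg:ℝ)) := Real.log_nonneg (by linarith)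
    have hb := beta2_pos
    have hU := U₂_pos
    positivity
  have hUs := Us_pos
  have hAp := Ap_pos
  have hb := beta2_pos
  set Kd : ℝ := KdV C10 with hKd
  have hgp : (0:ℝ) < g1 ^ 2 / 32 := by have := g1_pos; positivity
  obtain ⟨K0, e0, G⟩ := exists_good Kd (Cv ρmax) (g1 ^ 2 / 32) hgp
  have hK := G.he
  -- each part of `Kd` is below `Kd`
  have hp1 : 0 ≤ 8 * Ap * C10 / Us := by positivity
  have hp2 : 0 ≤ Real.log (ρmax + 3) + 3 := by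
    have : 0 ≤ Real.log (ρmax + 3) := Real.log_nonneg (by linarith)
    linarith
  have hp3 : 0 ≤ 48 * cbar := by have := cbar_nonneg; positivity
  have hp4 : 0 ≤ beta2 * Ap * ρmax := by positivity
  have hp5 : 0 ≤ 4 * Ap / Us := by positivity
  have hp6 : 0 ≤ CoB beta2 Ap ρmax * 2 ^ 104 := by
    unfold CoB
    positivity
  have hK1 : 8 * Ap * C10 / Us ≤ Kd := by rw [hKd]; unfold KdV; linarith
  have hK2 : Real.log (ρmax + 3) + 3 ≤ Kd := by rw [hKd]; unfold KdV; linarith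
  have hK3 : 48 * cbar ≤ Kd := by rw [hKd]; unfold KdV; linarith
  have hK4 : beta2 * Ap * ρmax ≤ Kd := by rw [hKd]; unfold KdV; linarith
  have hK5 : 4 * Ap / Us ≤ Kd := by rw [hKd]; unfold KdV; linarith
  have hK6 : CoB beta2 Ap ρmax * 2 ^ 104 ≤ Kd := by rw [hKd]; unfold KdV; linarith
  have hKd0 : 0 ≤ Kd := le_trans hp4 hK4
  have hp : (1:ℝ) ≤ 2 ^ (2 * e0 + 16) := one_le_pow₀ (by norm_num)
  have hKd2 : Kd ≤ 2 ^ K0 := by
    have : Kd * 1 ≤ Kd * 2 ^ (2 * e0 + 16) := mul_le_mul_of_nonneg_left hp hKd0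
    linarith [G.hKd]
  have hum : ∀ A, A0 ≤ A → A ≤ Ap → (4 * A / Us) * 2 ^ (2 * e0 + 16) ≤ 2 ^ K0 := by
    intro A _ h2
    have h3 : 4 * A / Us ≤ Kd := by
      refine le_trans ?_ hK5
      apply div_le_div_of_nonneg_right _ hUs.le
      linarith
    exact (mul_le_mul_of_nonneg_right h3 (by positivity)).trans G.hKd
  -- the `Small` for each choice
  have hSmall : ∀ β A ρ₀, 1 ≤ β → β ≤ beta2 → A0 ≤ A → A ≤ Ap → 0 < ρ₀ → ρ₀ ≤ ρmax →
      Small K0 e0 A β ρmax ρ₀ cbar C10 Us := by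
    intro β A ρ₀ h1 h2 h3 h4 h5 h6
    have hA0 : 0 ≤ A := A0_pos.le.trans h3
    have hβ0 : 0 ≤ β := by linarith
    refine Small_of_good G hA0 hβ0 hρ0 h5.le hC0 hUs ?_ hK2 hK3 ?_
    · refine le_trans ?_ hK1
      apply div_le_div_of_nonneg_right _ hUs.le
      apply mul_le_mul_of_nonneg_right _ hC0
      linarith
    · refine le_trans ?_ hK4
      have h7 : β * A ≤ beta2 * Ap := mul_le_mul h2 h4 hA0 hb.le
      exact mul_le_mul h7 h6 h5.le (by positivity)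
  refine ⟨K0, e0, Kg, S, G.large, hK, ?_⟩
  have hcv0 : 0 ≤ Cv ρmax := by unfold Cv; positivity
  have hg1 : g1 ^ 2 / 32 < 1 / 64 := by
    unfold g1
    rw [zpow_neg]
    norm_num
  refine ⟨hK, hc, hKgpos, hS0, hS, hρK, hum, hcv0, G.hV, lt_of_le_of_lt G.hV hg1, ?_, ?_, ?_, ?_⟩
  · intro β A c ρ₀ h1 h2 h3 h4 h5 h6 h7 h8 m
    have hβA : 1 ≤ β * A := by
      have h9 : 1 ≤ A := one_le_A0.trans h3
      nlinarith
    exact margin_lt (hSmall β A ρ₀ h1 h2 h3 h4 h7 h8) h6 h5 hβA m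
  · intro β A c ρ₀ h1 h2 h3 h4 h5 h6 h7 h8
    have hA0 : 0 ≤ A := A0_pos.le.trans h3
    exact margin_tendsto (hSmall β A ρ₀ h1 h2 h3 h4 h7 h8) h6 h5
      (fun m => (OSConcrete.um_mem hK hA0 hUs (hum A h3 h4) m).2)
  · intro β A c ρ₀ h1 h2 h3 h4 h5 h6 h7 h8
    have hA0 : 0 ≤ A := A0_pos.le.trans h3
    refine OmB_zero_lt (hSmall β A ρ₀ h1 h2 h3 h4 h7 h8) h6 h5 ?_
    have h9 := CoB_mono (by linarith : 0 ≤ β) h2 hA0 h4 hρ0
    have h10 : CoB β A ρmax * 2 ^ 104 ≤ CoB beta2 Ap ρmax * 2 ^ 104 :=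
      mul_le_mul_of_nonneg_right h9 (by positivity)
    linarith
  · exact hTail_field hK hc hum

end

end Crest.Agent.TL.Asm
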